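import Vale.Agent.P309.Final
import Vale.Agent.P309.Impossible
import Vale.Agent.P309.Upper

/-!
# P309 : order of the least horizon for noiseless Gaussian linear regression
-/

namespace Vale.Agent.Results.P309.HorizonTheta

open MeasureTheory ProbabilityTheory _root_.P309

universe u v

/-- Order of the least horizon of learners with `M ≤ K d²` bits at accuracy `ε`:
* every successful learner needs at least `c d log (1/ε)` samples;
* if `M ≥ C d log (d/ε)` then `C d log (1/ε)` samples suffice (even without randomness and with an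
  output depending on the final state only);
* if `M ≤ c d log (1/ε)` then no learner whose output depends on its final state only succeeds,
  whatever the horizon;
* for all `M` (not only `M ≤ K d²`): `(T + d) (d² + M) ≥ c d³ log (1/ε)`. -/
theorem result :
    ∀ K : ℝ, 0 < K → ∃ c C ε₀ : ℝ, 0 < c ∧ 0 < C ∧ 0 < ε₀ ∧ ∃ d₀ : ℕ, ∀ d : ℕ, d₀ ≤ d →
      ∀ M T : ℕ, ∀ ε : ℝ, 0 < ε → ε ≤ ε₀ →
      ((M : ℝ) ≤ K * (d : ℝ) ^ 2 →
        ∀ (S : Type u) (Ω : Type v) [Fintype S] [MeasurableSpace Ω] (P : Measure Ω)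
          [IsProbabilityMeasure P] (A : Learner d S Ω),
          Fintype.card S ≤ 2 ^ M → A.Succeeds P T ε → c * ((d : ℝ) * Real.log (1 / ε)) ≤ T) ∧
      (C * ((d : ℝ) * Real.log (d / ε)) ≤ M → C * ((d : ℝ) * Real.log (1 / ε)) ≤ T →
        ∃ (S : Type) (_ : Fintype S) (A : Learner d S Unit),
          (∀ i j ω u, A.out i ω u = A.out j ω u) ∧ Fintype.card S ≤ 2 ^ M ∧
          A.Succeeds (Measure.dirac ()) T ε) ∧
      ((M : ℝ) ≤ c * ((d : ℝ) * Real.log (1 / ε)) →
        ∀ (S : Type u) (Ω : Type v) [Fintype S] [MeasurableSpace Ω] (P : Measure Ω)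
          [IsProbabilityMeasure P] (A : Learner d S Ω),
          (∀ i j ω u, A.out i ω u = A.out j ω u) → Fintype.card S ≤ 2 ^ M →
          ¬ A.Succeeds P T ε) ∧
      (∀ (S : Type u) (Ω : Type v) [Fintype S] [MeasurableSpace Ω] (P : Measure Ω)
        [IsProbabilityMeasure P] (A : Learner d S Ω),
        Fintype.card S ≤ 2 ^ M → A.Succeeds P T ε →
        c * (d : ℝ) ^ 3 * Real.log (1 / ε) ≤ ((T : ℝ) + d) * ((d : ℝ) ^ 2 + M)) := by
  intro K hK
  have hK1 : (0 : ℝ) < 8000000 * (K + 1) := by positivity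
  have hcle : 1 / (8000000 * (K + 1)) ≤ 1 / 8000000 :=
    one_div_le_one_div_of_le (by norm_num) (by linarith)
  refine ⟨1 / (8000000 * (K + 1)), 100, Real.exp (-(8000000 * (K + 1))), by positivity,
    by norm_num, Real.exp_pos _, 1000, ?_⟩
  intro d hd M T ε h0 h1
  have hdR : (1000 : ℝ) ≤ d := by exact_mod_cast hd
  have hε1000 : ε ≤ Real.exp (-1000) := h1.trans (Real.exp_le_exp.mpr (by linarith))
  have hε100 : ε ≤ Real.exp (-100) := h1.trans (Real.exp_le_exp.mpr (by linarith))
  have hεhalf : ε ≤ 1 / 2 := by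
    refine hε1000.trans ?_
    rw [Real.exp_neg]
    have h2 : (2 : ℝ) ≤ Real.exp 1000 := by
      have := Real.add_one_le_exp (1000 : ℝ); linarith
    rw [one_div]
    exact inv_anti₀ (by norm_num) h2
  have hlog : 0 ≤ Real.log (1 / ε) := by
    apply Real.log_nonneg
    rw [le_div_iff₀ h0]; linarith
  have hdl : 0 ≤ (d : ℝ) * Real.log (1 / ε) := mul_nonneg (by linarith) hlog
  refine ⟨?_, ?_, ?_, ?_⟩
  · intro hM S Ω _ _ P _ A hS hA
    exact main_linear hK hd h0 h1 hM hS P A hA
  · intro hM hT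
    exact upper (by omega) h0 hεhalf hM hT
  · intro hM S Ω _ _ P _ A hout hS
    refine impossible hd h0 hε1000 (hM.trans ?_) hS P A hout
    exact mul_le_mul_of_nonneg_right (hcle.trans (by norm_num)) hdl
  · intro S Ω _ _ P _ A hS hA
    refine le_trans ?_ (_root_.P309.main hd h0 hε100 hS P A hA)
    have h2 : 0 ≤ (d : ℝ) ^ 3 * Real.log (1 / ε) := mul_nonneg (by positivity) hlog
    have h3 := mul_le_mul_of_nonneg_right (hcle.trans (by norm_num : (1 : ℝ) / 8000000 ≤
      1 / 4000000)) h2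
    calc 1 / (8000000 * (K + 1)) * (d : ℝ) ^ 3 * Real.log (1 / ε)
        = 1 / (8000000 * (K + 1)) * ((d : ℝ) ^ 3 * Real.log (1 / ε)) := by ring
      _ ≤ 1 / 4000000 * ((d : ℝ) ^ 3 * Real.log (1 / ε)) := h3
      _ = _ := by ring

end Vale.Agent.Results.P309.HorizonTheta
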