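import Vale.Agent.P309.Final

/-!
# P309 : memory-sample trade-off for noiseless Gaussian linear regression
-/

namespace Vale.Agent.Results.P309.MemorySamples

open MeasureTheory ProbabilityTheory _root_.P309

universe u v

/-- Every learner with `M` bits and horizon `T` that succeeds at accuracy `ε` satisfies
`(T + d) (d² + M) ≥ c d³ log (1/ε)`; in particular `M ≤ K d²` forces `T ≥ c' d log (1/ε)`. -/
theorem result :
    (∃ c : ℝ, 0 < c ∧ ∃ ε₀ : ℝ, 0 < ε₀ ∧ ∃ d₀ : ℕ, ∀ d : ℕ, d₀ ≤ d → ∀ M T : ℕ, ∀ ε : ℝ,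
      0 < ε → ε ≤ ε₀ →
      ∀ (S : Type u) (Ω : Type v) [Fintype S] [MeasurableSpace Ω] (P : Measure Ω)
        [IsProbabilityMeasure P] (A : Learner d S Ω),
        Fintype.card S ≤ 2 ^ M → A.Succeeds P T ε →
        c * (d : ℝ) ^ 3 * Real.log (1 / ε) ≤ ((T : ℝ) + d) * ((d : ℝ) ^ 2 + M)) ∧
    (∀ K : ℝ, 0 < K → ∃ c' : ℝ, 0 < c' ∧ ∃ ε₀ : ℝ, 0 < ε₀ ∧ ∃ d₀ : ℕ, ∀ d : ℕ, d₀ ≤ d →
      ∀ M T : ℕ, ∀ ε : ℝ, 0 < ε → ε ≤ ε₀ → (M : ℝ) ≤ K * (d : ℝ) ^ 2 →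
      ∀ (S : Type u) (Ω : Type v) [Fintype S] [MeasurableSpace Ω] (P : Measure Ω)
        [IsProbabilityMeasure P] (A : Learner d S Ω),
        Fintype.card S ≤ 2 ^ M → A.Succeeds P T ε →
        c' * ((d : ℝ) * Real.log (1 / ε)) ≤ T) := by
  refine ⟨⟨1 / 4000000, by norm_num, Real.exp (-100), Real.exp_pos _, 1000, ?_⟩, ?_⟩
  · intro d hd M T ε h0 h1 S Ω _ _ P _ A hS hA
    exact _root_.P309.main hd h0 h1 hS P A hA
  · intro K hK
    refine ⟨1 / (8000000 * (K + 1)), by positivity, Real.exp (-(8000000 * (K + 1))),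
      Real.exp_pos _, 1000, ?_⟩
    intro d hd M T ε h0 h1 hM S Ω _ _ P _ A hS hA
    exact _root_.P309.main_linear hK hd h0 h1 hM hS P A hA

end Vale.Agent.Results.P309.MemorySamples
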